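import Vale.Agent.P269CF.Spec
import Vale.Agent.P269CS.Sys
import Vale.Agent.P269CT.T3

/-!
P269, block C, row PSYS: systems of product charts near a smooth fibre.
-/

set_option autoImplicit false
set_option linter.all false

noncomputable section

namespace Vale.Agent.P269KX

open Set Filter Vale.Agent.P273.H183 Vale.Agent.P272.K Vale.Agent.P269C Vale.Agent.P269CD
open Vale.Agent.P269CT (HolAt cont_π π_s holAt_s s_inj sp_s ex_co t3_co)
open Vale.Agent.P269CS Vale.Agent.P269CF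
open Vale.Agent.P269CV (k2)
open scoped Topology ContDiff Classical

variable {L : Type} {D : ℕ} {C : Fam L D}

theorem prd_of (hC : C.IsStable) (c : Ch C) {z : C.X → ℂ} (h : ∀ q ∈ c.e.source,
    c.e q = Fin.snoc (α := fun _ => ℂ) (C.π q) (z q) ∧ C.hol z q ∧ Co C z q ∧ Sm C (C.π q)) :
    Prd c := by
  intro q hq
  have e : ∀ r ∈ c.e.source, c.z r = z r := fun r hr => by rw [Ch.z, (h r hr).1, Fin.snoc_last]
  have h1 : C.hol c.z q :=
    k2.hcg hC (h q hq).2.1 (mem_of_superset (c.e.open_source.mem_nhds hq) e)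
  obtain ⟨-, U, hU, hi⟩ := (h q hq).2.2.1
  refine ⟨by rw [(h q hq).1]; exact Fin.init_snoc _ _, h1, ⟨⟨_, h1, EventuallyEq.rfl⟩,
    U ∩ c.e.source, inter_mem hU (mem_nhdsWithin_of_mem_nhds (c.e.open_source.mem_nhds hq)),
    fun r hr r' hr' e' => hi hr.1 hr'.1 ?_⟩, (h q hq).2.2.2⟩
  rwa [e r hr.2, e r' hr'.2] at e'

/-- A chart by a coordinate, over smooth fibres. -/
theorem ex_e (hC : C.IsStable) {z : C.X → ℂ} {p : C.X} (h1 : C.hol z p) (h2 : Co C z p)
    (hp : Sm C (C.π p)) : ∃ e : OpenPartialHomeomorph C.X (Cm (D + 1)), p ∈ e.source ∧ IsCh C e ∧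
      ∀ q ∈ e.source, e q = Fin.snoc (α := fun _ => ℂ) (C.π q) (z q) ∧ C.hol z q ∧ Co C z q ∧
        Sm C (C.π q) := by
  obtain ⟨e, hpe, he, hq⟩ := t3_co hC z p h1 h2
  have h3 : ∀ᶠ q in 𝓝 p, C.π q ∈ {b | b ∈ C.B ∧ Sm C b} :=
    (cont_π hC).continuousAt.preimage_mem_nhds ((k2.smo hC).mem_nhds ⟨hC.2.2.1 p, hp⟩)
  obtain ⟨O, hO, hO1, hO2⟩ := mem_nhds_iff.1 ((k2.ev hC h1 h2).and h3)
  exact ⟨e.restrOpen O hO1, ⟨hpe, hO2⟩, isCh_restr he hO1, fun q h =>
    ⟨hq q h.1, (hO h.2).1.1, (hO h.2).1.2, (hO h.2).2.2⟩⟩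

/-- Every point of a smooth fibre is in an adapted product chart. -/
theorem ex_prd [Finite L] (hC : C.IsStable) (p : C.X) (hs : Sm C (C.π p)) :
    ∃ c : Ch C, p ∈ c.e.source ∧ Prd c := by
  obtain ⟨z, hz, hc⟩ := ex_co hC (hs p rfl)
  by_cases hp : ∃ i, p = C.s i (C.π p)
  · obtain ⟨i, hi⟩ := hp
    have hb := hC.2.2.1 p
    have ha : AnalyticAt ℂ (fun b => z (C.s i b)) (C.π p) := (holAt_s hC hb i).2 z (hi ▸ hz)
    have h1 : C.hol (fun q => z q - z (C.s i (C.π q))) p :=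
      k2.han hC (fun w => w.2.1 - z (C.s i w.1)) hz hz
        ((analyticAt_fst.comp analyticAt_snd).sub
          (AnalyticAt.comp (g := fun b => z (C.s i b)) ha analyticAt_fst))
    have h2 : Co C (fun q => z q - z (C.s i (C.π q))) p := by
      obtain ⟨-, U, hU, hinj⟩ := hc
      refine ⟨⟨_, h1, EventuallyEq.rfl⟩, U ∩ C.fib (C.π p), inter_mem hU self_mem_nhdsWithin, ?_⟩
      intro q hq q' hq' e
      have e1 : C.π q = C.π p := hq.2
      have e2 : C.π q' = C.π p := hq'.2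
      simp only [e1, e2, sub_left_inj] at e
      exact hinj hq.1 hq'.1 e
    obtain ⟨e, hpe, he, hq⟩ := ex_e hC h1 h2 hs
    have hV : IsOpen ({q | C.s i (C.π q) ∈ e.source} ∩
        {q | ∀ j, some i ≠ some j → q ≠ C.s j (C.π q)}) :=
      (e.open_source.preimage (cont_sπ hC i)).inter (isOpen_off hC (some i))
    have hs : ∀ q j, some i ≠ some j → C.s i (C.π q) ≠ C.s j (C.π q) := fun q j hj e =>
      hj (congrArg some (s_inj hC (hC.2.2.1 q) e))
    refine ⟨⟨e.restrOpen _ hV, some i, isCh_restr he hV, ?_, fun j hj q hq => hq.2.2 j hj⟩,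
      ⟨hpe, ?_, fun j hj => ?_⟩, prd_of hC _ fun q h => hq q h.1⟩
    · intro j hj q h
      obtain rfl : i = j := Option.some.inj hj
      have e1 := π_s hC (hC.2.2.1 q) i
      refine ⟨?_, ⟨h.2.1, ?_, fun j hj => ?_⟩, ?_⟩
      · change pr (e q) = _
        rw [(hq q h.1).1]; simp [pr]
      · change C.s i (C.π (C.s i (C.π q))) ∈ e.source
        rw [e1]; exact h.2.1
      · rw [e1]; exact hs q j hj
      · change e _ = _
        rw [(hq _ h.2.1).1, e1, sub_self]; rfl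
    · change C.s i (C.π p) ∈ e.source
      rw [← hi]; exact hpe
    · have := hs p j hj
      rwa [← hi] at this
  · obtain ⟨e, hpe, he, hq⟩ := ex_e hC hz hc hs
    exact ⟨⟨e.restrOpen _ (isOpen_off hC none), none, isCh_restr he _, fun j hj => (by cases hj),
      fun j hj q hq => hq.2 j hj⟩, ⟨hpe, fun j _ h => hp ⟨j, h⟩⟩, prd_of hC _ fun q h => hq q h.1⟩

/-- Chart systems with charts in a given class. -/
theorem sys_of (hC : C.IsStable) {γ : Cm D → ℝ} (hγ : ContDiff ℝ ∞ γ)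
    (hc : IsCompact (tsupport γ)) (hB : tsupport γ ⊆ C.B) {Q : Ch C → Prop}
    (hQ : ∀ p, C.π p ∈ tsupport γ → ∃ c : Ch C, p ∈ c.e.source ∧ Q c) :
    ∃ S : Sys C γ, (∀ j y, |S.w j y| ≤ |γ ((S.c j).p y)|) ∧ ∀ j, Q (S.c j) := by
  choose c hcp hcQ using fun p : C.π ⁻¹' tsupport γ => hQ p.1 p.2
  have hf : ∀ p, ∃ f : Cm (D + 1) → ℝ, tsupport f ⊆ (c p).e.target ∧ HasCompactSupport f ∧
      ContDiff ℝ ∞ f ∧ range f ⊆ Icc 0 1 ∧ f ((c p).e p) = 1 := fun p =>
    exists_contDiff_tsupport_subset ((c p).e.open_target.mem_nhds ((c p).e.map_source (hcp p)))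
  choose f hf1 hf2 hf3 hf4 hf5 using hf
  have h0 : ∀ p q, 0 ≤ ext0 (c p).e (f p) q := fun p q => by
    unfold ext0
    split_ifs
    · exact (hf4 p ⟨_, rfl⟩).1
    · exact le_rfl
  have hU : ∀ p, {q | 0 < ext0 (c p).e (f p) q} ∈ 𝓝 p.1 := fun p => by
    have h1 : ContinuousAt (fun q => f p ((c p).e q)) p :=
      (hf3 p).continuous.continuousAt.comp ((c p).e.continuousAt (hcp p))
    have h2 : ∀ᶠ q in 𝓝 p.1, 0 < f p ((c p).e q) :=
      h1.eventually (lt_mem_nhds (one_pos.trans_eq (hf5 p).symm))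
    filter_upwards [h2, (c p).e.open_source.mem_nhds (hcp p)] with q h3 h4
    change 0 < ext0 _ _ _
    unfold ext0
    rwa [if_pos h4]
  obtain ⟨t, ht⟩ := (hC.2.2.2.1 _ hB hc).elim_nhds_subcover' _ fun p hp => hU ⟨p, hp⟩
  let ι : Fin t.card → C.π ⁻¹' tsupport γ := fun j => (t.equivFin.symm j).1
  let S : C.X → ℝ := fun q => ∑ j, ext0 (c (ι j)).e (f (ι j)) q
  have hS : ∀ q, C.π q ∈ tsupport γ → S q ≠ 0 := fun q hq => by
    obtain ⟨p, hp, h1⟩ := mem_iUnion₂.1 (ht hq)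
    refine (Finset.sum_pos' (fun j _ => h0 _ _) ⟨t.equivFin ⟨p, hp⟩, Finset.mem_univ _, ?_⟩).ne'
    simpa [ι] using h1
  refine ⟨⟨t.card, fun j => c (ι j),
    fun j y => f (ι j) y * (γ (C.π ((c (ι j)).e.symm y)) / S ((c (ι j)).e.symm y)),
    fun j => ?_, fun p => ?_⟩, fun j y => ?_, fun j => hcQ _⟩
  · have hts : tsupport (fun y => f (ι j) y *
        (γ (C.π ((c (ι j)).e.symm y)) / S ((c (ι j)).e.symm y))) ⊆ tsupport (f (ι j)) :=
      tsupport_mul_subset_left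
    refine ⟨contDiff_iff_contDiffAt.2 fun y => ?_, (hf2 _).mul_right, hts.trans (hf1 _)⟩
    by_cases hy : y ∈ tsupport (f (ι j))
    · have hy' := hf1 _ hy
      have ha := (holAt_symm (c (ι j)).hol hy').π hC
      refine (hf3 _).contDiffAt.mul ?_
      by_cases hz : C.π ((c (ι j)).e.symm y) ∈ tsupport γ
      · exact (hγ.contDiffAt.comp y (ha.contDiffAt.restrict_scalars ℝ)).div
          (ContDiffAt.sum fun k _ =>
            sm_ext0 hC (c (ι j)).hol (c (ι k)).hol (hf3 _) (hf2 _) (hf1 _) hy') (hS _ hz)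
      · refine (contDiffAt_const (c := (0 : ℝ))).congr_of_eventuallyEq ?_
        filter_upwards [ha.continuousAt.preimage_mem_nhds
          ((isClosed_tsupport γ).isOpen_compl.mem_nhds hz)] with x hx
        rw [image_eq_zero_of_notMem_tsupport hx, zero_div]
    · refine (contDiffAt_const (c := (0 : ℝ))).congr_of_eventuallyEq ?_
      filter_upwards [(isClosed_tsupport _).isOpen_compl.mem_nhds hy] with x hx
      rw [image_eq_zero_of_notMem_tsupport hx, zero_mul]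
  · have h1 : ∀ j, (if p ∈ (c (ι j)).e.source then f (ι j) ((c (ι j)).e p) *
        (γ (C.π ((c (ι j)).e.symm ((c (ι j)).e p))) / S ((c (ι j)).e.symm ((c (ι j)).e p))) else 0)
        = ext0 (c (ι j)).e (f (ι j)) p * (γ (C.π p) / S p) := fun j => by
      unfold ext0
      split_ifs with h
      · rw [(c (ι j)).e.left_inv h]
      · rw [zero_mul]
    refine (Finset.sum_congr rfl fun j _ => h1 j).trans ?_
    rw [← Finset.sum_mul]
    by_cases hz : C.π p ∈ tsupport γ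
    · exact mul_div_cancel₀ _ (hS p hz)
    · rw [image_eq_zero_of_notMem_tsupport hz, zero_div, mul_zero]
  · change |f (ι j) y * (γ ((c (ι j)).p y) / S ((c (ι j)).e.symm y))| ≤ |γ ((c (ι j)).p y)|
    by_cases hy : y ∈ (c (ι j)).e.target
    · have h1 : f (ι j) y ≤ S ((c (ι j)).e.symm y) := by
        refine le_trans (le_of_eq ?_) (Finset.single_le_sum (fun k _ => h0 (ι k) _)
          (Finset.mem_univ j))
        unfold ext0
        rw [if_pos ((c (ι j)).e.map_target hy), (c (ι j)).e.right_inv hy]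
      have h2 : 0 ≤ f (ι j) y := (hf4 _ ⟨_, rfl⟩).1
      rw [mul_div_left_comm, abs_mul, abs_of_nonneg (div_nonneg h2 (h2.trans h1))]
      exact mul_le_of_le_one_right (abs_nonneg _) (div_le_one_of_le₀ h1 (h2.trans h1))
    · rw [image_eq_zero_of_notMem_tsupport fun h => hy (hf1 _ h), zero_mul, abs_zero]
      exact abs_nonneg _

/-- Row PSYS. -/
theorem psys : PSYS := by
  intro L _ D C hC b₀ hb hs
  obtain ⟨r, hr, hK⟩ := Metric.nhds_basis_closedBall.mem_iff.1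
    ((k2.smo hC).mem_nhds (x := b₀) ⟨hb, hs⟩)
  let χ : ContDiffBump b₀ := ⟨r / 2, r, half_pos hr, half_lt_self hr⟩
  have h1 : tsupport χ ⊆ {b | b ∈ C.B ∧ Sm C b} := by rw [χ.tsupport_eq]; exact hK
  obtain ⟨S, h2, h3⟩ := sys_of hC χ.contDiff χ.hasCompactSupport.isCompact (fun b h => (h1 h).1)
    fun p hp => ex_prd hC p (h1 hp).2
  exact ⟨χ, S, χ.eventuallyEq_one, fun b h => (h1 h).1,
    fun j y => (h2 j y).trans (by rw [abs_of_nonneg χ.nonneg]; exact χ.le_one), h3⟩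

end Vale.Agent.P269KX
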