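import Vale.Agent.P269CD.Cnt
import Vale.Agent.P269CI.Bas
import Vale.Agent.P269CI.Keyb
import Vale.Agent.P269CT.Sec

/-!
P269, block C, row KEYX: the theorem of Stokes on the universal curve.
-/

set_option autoImplicit false
set_option linter.all false

noncomputable section

namespace Vale.Agent.P269KX

open Set Filter MeasureTheory Vale.Agent.P273.H183 Vale.Agent.P272.K Vale.Agent.P269C
open Vale.Agent.P269CD
open Vale.Agent.P269CT (Gen gen_iff π_s)
open Vale.Agent.P269CK (k1 Is.bij Is.mark mark_mem)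
open Vale.Agent.P269CI (tr_an tr_src p_an one_at)
open scoped Topology ContDiff Classical

variable {L : Type} {D m m' : ℕ}

/-- Generic points are invariant under isomorphisms. -/
theorem gen_is {C : Fam L m} {C' : Fam L m'} (hC : C.IsStable) (hC' : C'.IsStable) {b b'}
    {Φ : C.X → C'.X} (hb : b ∈ C.B) (h : Is C b C' b' Φ) {p : C.X} (hp : p ∈ C.fib b)
    (hg : Gen C p) : Gen C' (Φ p) := by
  have hb' : C'.π (Φ p) = b' := (Is.bij h).mapsTo hp
  have hpb : C.π p = b := hp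
  rw [gen_iff hC] at hg
  refine (gen_iff hC').2 ⟨(k1.nf hC hC' (k1.fg.1 h).1 p hp).2.2.2.2.2 hg.1, fun i e => ?_⟩
  rw [hb', ← Is.mark h i (mark_mem hC hb i)] at e
  exact hg.2 i (hpb ▸ (Is.bij h).injOn (mark_mem hC hb i) hp e)

/-- The local description of the pointed count between two charts of total spaces. -/
theorem loc {C C' : Fam L D} (hC : C.IsStable) (hC' : Kur C') (c : Ch C) (c' : Ch C')
    {K : Set (Cm (D + 1))} (hK : IsCompact K) (hK' : K ⊆ c'.e.target) {y₀ : Cm (D + 1)}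
    (hy : y₀ ∈ c.e.target) : ∃ (k : ℕ) (ψ : Fin k → Cm (D + 1) → Cm (D + 1)),
    (∀ l, AnalyticAt ℂ (ψ l) y₀) ∧
    (∀ᶠ y in 𝓝 y₀, ∀ x ∈ K, np C (c.p y) (c.e.symm y) C' (c'.p x) (c'.e.symm x) =
      (Finset.univ.filter fun l => ψ l y = x).card) ∧
    ∀ l, ψ l y₀ ∈ K → ∃ φ Φ, ψ l = c.tr c' Φ ∧ Φ (c.e.symm y₀) ∈ c'.e.source ∧
      ∀ᶠ x in 𝓝 (c.p y₀), Mor C C' φ Φ x := by
  have := hC'.1.2.1
  obtain ⟨k, φ, Φ, h⟩ := k1.cnt hC' hC (c.p y₀) (c.p_mem hC y₀) (c'.p '' K)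
    (by rintro _ ⟨x, -, rfl⟩; exact c'.p_mem hC'.1 x)
    (hK.image_of_continuousOn ((c'.p_cont hC'.1).mono hK'))
  obtain ⟨x₁, hx₁⟩ : ∃ x₁, x₁ ∉ K := (ne_univ_iff_exists_notMem K).1 hK.ne_univ
  have h0 := h.self_of_nhds
  refine ⟨k, fun l => if Φ l (c.e.symm y₀) ∈ c'.e.source then c.tr c' (Φ l) else fun _ => x₁,
    fun l => ?_, ?_, fun l hl => ?_⟩
  · by_cases hl : Φ l (c.e.symm y₀) ∈ c'.e.source
    · simp only [if_pos hl]
      exact tr_an c c' hy (h0.1 l) hl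
    · simp only [if_neg hl]
      exact analyticAt_const
  · have hcl : IsClosed (c'.e.symm '' K) :=
      (hK.image_of_continuousOn (c'.e.continuousOn_symm.mono hK')).isClosed
    have h1 : ∀ᶠ y in 𝓝 y₀, ∀ l, if Φ l (c.e.symm y₀) ∈ c'.e.source then
        Φ l (c.e.symm y) ∈ c'.e.source else Φ l (c.e.symm y) ∉ c'.e.symm '' K := by
      refine eventually_all.2 fun l => ?_
      by_cases hl : Φ l (c.e.symm y₀) ∈ c'.e.source
      · simp only [if_pos hl]
        exact tr_src c c' hy (h0.1 l) hl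
      · simp only [if_neg hl]
        have h2 : ContinuousAt (fun y => Φ l (c.e.symm y)) y₀ :=
          ContinuousAt.comp (g := Φ l) ((h0.1 l).2.2.2 _ rfl).1 (c.e.continuousAt_symm hy)
        refine h2.preimage_mem_nhds (hcl.isOpen_compl.mem_nhds ?_)
        rintro ⟨x, hx, e⟩
        exact hl (e ▸ c'.e.map_target (hK' hx))
    filter_upwards [(p_an hC c hy).continuousAt.eventually h, h1] with y h2 h3 x hx
    refine ((h2.2 _ ⟨x, hx, rfl⟩).2 fun q r => q.1 = c.e.symm y → r = c'.e.symm x).trans ?_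
    congr 1
    refine Finset.filter_congr fun l _ => ?_
    have h4 := h3 l
    have h5 : C'.π (Φ l (c.e.symm y)) = φ l (c.p y) := (Is.bij (h2.1 l).2.2.1).mapsTo rfl
    by_cases hl : Φ l (c.e.symm y₀) ∈ c'.e.source
    · simp only [if_pos hl] at h4 ⊢
      constructor
      · rintro ⟨-, h6⟩
        rw [Ch.tr, h6 ⟨_, rfl⟩ rfl, c'.e.right_inv (hK' hx)]
      · rintro rfl
        rw [Ch.tr, c'.p_e h4, c'.e.left_inv h4]
        exact ⟨h5.symm, fun q hq => by rw [hq]⟩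
    · simp only [if_neg hl] at h4 ⊢
      exact ⟨fun h6 => (h4 ⟨x, hx, (h6.2 ⟨_, rfl⟩ rfl).symm⟩).elim, fun e => (hx₁ (e ▸ hx)).elim⟩
  · by_cases h1 : Φ l (c.e.symm y₀) ∈ c'.e.source
    · exact ⟨φ l, Φ l, if_pos h1, h1, h.mono fun x hx => hx.1 l⟩
    · simp only [if_neg h1] at hl
      exact (hx₁ hl).elim

/-- Row KEYX. -/
theorem keyx (key : KEY) (gdc : GDC) (nulx : NULX) : KEYX := by
  intro L _ g D A U u R hR hu γ hγ
  have st : ∀ a, (A.C a).IsStable := fun a => (A.kur a).1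
  have sm := fun j : U.J => (U j.1).sm j.2
  refine key (D + 1) U.J U.w u γ (fun j j' y x =>
    if y ∈ (U.c j).e.target ∧ x ∈ (U.c j').e.target then
      np (A.C j.1) ((U.c j).p y) ((U.c j).e.symm y) (A.C j'.1) ((U.c j').p x) ((U.c j').e.symm x)
    else 0) (fun j => ⟨(sm j).1, (sm j).2.1⟩) ?_ ?_ ?_ ?_
  · intro j y hy
    filter_upwards [(U.c j).e.open_target.mem_nhds ((sm j).2.2 hy)] with x hx
    exact ⟨(hu j x hx).1, gdc _ x _ (hγ.1 j x hx)⟩
  · intro j j' y x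
    by_cases h : y ∈ (U.c j).e.target ∧ x ∈ (U.c j').e.target
    · rw [if_pos h, if_pos h.symm]
      exact np_symm (st _) (st _) ((U.c j).p_mem (st _) y) ((U.c j').p_mem (st _) x) rfl rfl
    · rw [if_neg h, if_neg fun h' => h h'.symm]
  · intro j y hy
    have hy' := (sm j).2.2 hy
    have hb := (U.c j).p_mem (st _) y
    rw [← one_at A A j.1 hb, Fintype.sum_sigma]
    refine Finset.sum_congr rfl fun a _ => ?_
    rw [← np_sum (U a) (A.kur a) (A.sm a).2.1 (A.sm a).2.2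
      ((st _).2.2.2.1 _ (singleton_subset_iff.2 hb) isCompact_singleton) (mark_mem (st _) hb)
      (p := (U.c j).e.symm y) rfl]
    refine Finset.sum_congr rfl fun l _ => finsum_congr fun x => ?_
    by_cases hx : x ∈ (U.c ⟨a, l⟩).e.target
    · rw [if_pos ⟨hy', hx⟩]
    · have h0 : (U a).w l x = 0 :=
        image_eq_zero_of_notMem_tsupport fun h => hx ((sm ⟨a, l⟩).2.2 h)
      change _ * (U a).w l x = _
      rw [h0, mul_zero, mul_zero]
  · intro j j' y₀ hy
    have hy' := (sm j).2.2 hy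
    obtain ⟨k, ψ, h1, h2, h3⟩ := loc (st j.1) (A.kur j'.1) (U.c j) (U.c j') (sm j').2.1.isCompact
      (sm j').2.2 hy'
    refine ⟨k, ψ, h1, ?_, fun l hl => ?_⟩
    · filter_upwards [h2, (U.c j).e.open_target.mem_nhds hy'] with y h4 h5 x hx
      rw [if_pos ⟨h5, (sm j').2.2 hx⟩]
      exact h4 x hx
    · obtain ⟨φ, Φ, e, h4, h5⟩ := h3 l hl
      rw [e]
      have h6 : ∀ᶠ y in 𝓝 y₀, y ∈ (U.c j).e.target ∧ Φ ((U.c j).e.symm y) ∈ (U.c j').e.source ∧
          ∀ᶠ x in 𝓝 ((U.c j).p y), Mor (A.C j.1) (A.C j'.1) φ Φ x :=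
        ((U.c j).e.open_target.eventually_mem hy').and
          ((tr_src _ _ hy' h5.self_of_nhds h4).and
            ((p_an (st _) _ hy').continuousAt.eventually (eventually_eventually_nhds.2 h5)))
      filter_upwards [mem_inf_of_left h6,
        mem_inf_of_right (nulx L D _ (A.kur j.1) _ (U.c j).hol)] with y h7 h8
      refine ⟨?_, hγ.2 j j' φ Φ y h7.1 h7.2.2 h7.2.1⟩
      have h9 := h7.2.2.self_of_nhds.2.2.1
      have hb := (U.c j).p_mem (st _) y
      have hg := gen_is (st _) (st _) hb h9 (p := (U.c j).e.symm y) rfl (h8 h7.1).1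
      have e1 : (U.c j').e.symm ((U.c j).tr (U.c j') Φ y) = Φ ((U.c j).e.symm y) :=
        (U.c j').e.left_inv h7.2.1
      have ht : (U.c j).tr (U.c j') Φ y ∈ (U.c j').e.target := (U.c j').e.map_source h7.2.1
      rw [(hu j y h7.1).2 (h8 h7.1).1, (hu j' _ ht).2 (e1.symm ▸ hg), e1]
      exact hR _ _ _ _ Φ hb h9 _ rfl

end Vale.Agent.P269KX
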